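import Mathlib

/-! Problem P107: the definitions used by the final statement. -/

open MeasureTheory Set Filter Topology
open scoped ContDiff

noncomputable section
namespace Vale.Agent.P107

/-- Euclidean three-space. -/
abbrev V3 := EuclideanSpace ℝ (Fin 3)

/-- the energy `q(v) = √(1+|v|²)` -/
def q (v : V3) : ℝ := √(1 + ‖v‖ ^ 2)

/-- the relativistic velocity `u(v) = v / q(v)` -/
def uu (v : V3) : V3 := (q v)⁻¹ • v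

/-- the cross product -/
def cross (a b : V3) : V3 :=
  WithLp.toLp 2 ![a 1 * b 2 - a 2 * b 1, a 2 * b 0 - a 0 * b 2, a 0 * b 1 - a 1 * b 0]

/-- `pd A j i x = ∂_j A_i (x)` -/
def pd (A : V3 → V3) (j i : Fin 3) (x : V3) : ℝ :=
  (fderiv ℝ A x (EuclideanSpace.single j (1 : ℝ))) i

/-- divergence of a vector field -/
def dvg (A : V3 → V3) (x : V3) : ℝ := pd A 0 0 x + pd A 1 1 x + pd A 2 2 x

/-- curl of a vector field -/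
def curl (A : V3 → V3) (x : V3) : V3 :=
  WithLp.toLp 2 ![pd A 1 2 x - pd A 2 1 x, pd A 2 0 x - pd A 0 2 x, pd A 0 1 x - pd A 1 0 x]

/-- charge density `ρ(x) = ∫ g(x,v) dv` -/
def rho (g : V3 × V3 → ℝ) (x : V3) : ℝ := ∫ v, g (x, v)

/-- current density `j(x) = ∫ u(v) g(x,v) dv` -/
def cur (g : V3 × V3 → ℝ) (x : V3) : V3 := ∫ v, g (x, v) • uu v

/-- smooth admissible datum -/
structure Datum (f₀ : V3 × V3 → ℝ) (E₀ B₀ : V3 → V3) : Prop where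
  f_smooth : ContDiff ℝ ∞ f₀
  f_compact : HasCompactSupport f₀
  f_nonneg : ∀ z, 0 ≤ f₀ z
  E_smooth : ContDiff ℝ ∞ E₀
  B_smooth : ContDiff ℝ ∞ B₀
  E_L2 : MemLp E₀ 2 volume
  B_L2 : MemLp B₀ 2 volume
  E_bdd : ∀ n : ℕ, ∃ C : ℝ, ∀ x, ‖iteratedFDeriv ℝ n E₀ x‖ ≤ C
  B_bdd : ∀ n : ℕ, ∃ C : ℝ, ∀ x, ‖iteratedFDeriv ℝ n B₀ x‖ ≤ C
  div_E : ∀ x, dvg E₀ x = rho f₀ x
  div_B : ∀ x, dvg B₀ x = 0

/-- classical solution on `[0,∞)` with the given initial values; time derivatives are taken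
within `[0,∞)`, so they are one-sided at `t = 0` -/
structure GlobalSolution (f₀ : V3 × V3 → ℝ) (E₀ B₀ : V3 → V3)
    (f : ℝ → V3 × V3 → ℝ) (E B : ℝ → V3 → V3) : Prop where
  f_C1 : ContDiffOn ℝ 1 (fun p : ℝ × (V3 × V3) => f p.1 p.2) (Ici 0 ×ˢ univ)
  E_C1 : ContDiffOn ℝ 1 (fun p : ℝ × V3 => E p.1 p.2) (Ici 0 ×ˢ univ)
  B_C1 : ContDiffOn ℝ 1 (fun p : ℝ × V3 => B p.1 p.2) (Ici 0 ×ˢ univ)
  f_nonneg : ∀ t, 0 ≤ t → ∀ z, 0 ≤ f t z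
  f_init : f 0 = f₀
  E_init : E 0 = E₀
  B_init : B 0 = B₀
  vlasov : ∀ t, 0 ≤ t → ∀ x v : V3,
    derivWithin (fun s => f s (x, v)) (Ici 0) t
      + fderiv ℝ (fun y => f t (y, v)) x (uu v)
      + fderiv ℝ (fun w => f t (x, w)) v (E t x + cross (uu v) (B t x)) = 0
  ampere : ∀ t, 0 ≤ t → ∀ x : V3,
    derivWithin (fun s => E s x) (Ici 0) t - curl (B t) x = -cur (f t) x
  faraday : ∀ t, 0 ≤ t → ∀ x : V3,
    derivWithin (fun s => B s x) (Ici 0) t + curl (E t) x = 0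
  gauss_E : ∀ t, 0 ≤ t → ∀ x : V3, dvg (E t) x = rho (f t) x
  gauss_B : ∀ t, 0 ≤ t → ∀ x : V3, dvg (B t) x = 0
  E_L2 : ∀ t, 0 ≤ t → MemLp (E t) 2 volume
  B_L2 : ∀ t, 0 ≤ t → MemLp (B t) 2 volume
  E_cont : ∀ t₀, 0 ≤ t₀ →
    Tendsto (fun t => eLpNorm (fun x => E t x - E t₀ x) 2 volume) (𝓝[Ici 0] t₀) (𝓝 0)
  B_cont : ∀ t₀, 0 ≤ t₀ →
    Tendsto (fun t => eLpNorm (fun x => B t x - B t₀ x) 2 volume) (𝓝[Ici 0] t₀) (𝓝 0)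
  supp : ∀ T : ℝ, ∃ S : Set (V3 × V3), IsCompact S ∧
    ∀ t ∈ Icc (0 : ℝ) T, Function.support (f t) ⊆ S

end Vale.Agent.P107
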